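import Mathlib
import Vale.Agent.P110.Full.Main

/-!
Elementary estimates for the assembly: sizes, congruences and the sum over the lines of a class.
-/

noncomputable section

namespace Vale.Agent.P110.Full

open Finset

theorem re_ch (x : ℝ) : (ch x).re = Real.cos (2 * Real.pi * x) := Complex.exp_ofReal_mul_I_re _

theorem re_conj_mul_ch_neg (a : ℂ) (x : ℝ) :
    ((starRingEnd ℂ) a * ch (-x)).re = (a * ch x).re := by
  rw [← conj_ch, ← map_mul, Complex.conj_re]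

theorem coef_eq_norm_mul_ch (a : ℂ) : a = (‖a‖ : ℂ) * ch (a.arg / (2 * Real.pi)) := by
  rw [ch, mul_div_cancel₀ _ (by positivity : (2 * Real.pi : ℝ) ≠ 0)]
  exact (Complex.norm_mul_exp_arg_mul_I a).symm

theorem sum_lines {n : ℕ} (hn : 0 < n) (β : Fin n → ℝ) (b : ℤ)
    (hβ : ∀ k : ℤ, ch ((b : ℝ) * k ^ 2 / n) =
      (Real.sqrt n : ℂ)⁻¹ * ∑ j : Fin n, ch (β j - (j : ℕ) * k / n))
    (θ base D P w X : ℝ) (hP : P = D * n) (hD : D ≠ 0) (k : ℤ) :
    ∑ j : Fin n, Real.cos (2 * Real.pi * (β j + θ - (base + D * (j : ℕ)) * k / P - w * X)) =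
      Real.sqrt n * (ch (θ + ((b : ℝ) * k ^ 2 / n - base * k / P - w * X))).re := by
  have hn0 : (n : ℝ) ≠ 0 := Nat.cast_ne_zero.2 hn.ne'
  have hs : (Real.sqrt n : ℂ) ≠ 0 :=
    Complex.ofReal_ne_zero.2 (Real.sqrt_ne_zero'.2 (Nat.cast_pos.2 hn))
  have h1 : ∀ j : Fin n, β j + θ - (base + D * (j : ℕ)) * k / P - w * X =
      (θ - base * k / P - w * X) + (β j - (j : ℕ) * k / n) := fun j => by
    subst hP
    field_simp
    ring
  simp only [← re_ch, h1, ch_add (θ - base * k / P - w * X), ← Complex.re_sum, ← Finset.mul_sum]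
  rw [(inv_mul_eq_iff_eq_mul₀ hs).1 (hβ k).symm, ← mul_assoc, mul_comm _ (Real.sqrt n : ℂ),
    mul_assoc, ← ch_add, Complex.re_ofReal_mul]
  congr 3
  ring

theorem exists_crt {I : Type} [Fintype I] [DecidableEq I] (m : ℕ) (M : I → ℕ)
    (hm : ∀ i, (m.Coprime (M i))) (hc : ∀ i j, i ≠ j → (M i).Coprime (M j))
    (h1 : ((∏ i, M i : ℕ) : ZMod m) = 1) (a : ℤ) (r : I → ℤ) :
    ∃ z : ℤ, (z : ZMod m) = a ∧ ∀ i, (z : ZMod (M i)) = r i := by
  set E : I → ℕ := fun i => m * ∏ j ∈ univ.erase i, M j with hE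
  have hEc : ∀ i, (E i).Coprime (M i) := fun i =>
    Nat.Coprime.mul_left (hm i) (Nat.Coprime.prod_left fun j hj => hc j i (ne_of_mem_erase hj))
  have hh : ∀ i, ∃ h : ℤ, ((E i : ℤ) : ZMod (M i)) * (h : ZMod (M i)) = 1 := fun i => by
    obtain ⟨h, hh⟩ := ZMod.intCast_surjective (n := M i) ((E i : ZMod (M i))⁻¹)
    exact ⟨h, by rw [hh, Int.cast_natCast]; exact ZMod.coe_mul_inv_eq_one _ (hEc i)⟩
  choose h hh using hh
  refine ⟨a * (∏ i, M i : ℕ) + ∑ i, r i * ((E i : ℤ) * h i), ?_, fun i => ?_⟩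
  · have h2 : ∀ i, ((E i : ℤ) : ZMod m) = 0 := fun i => by simp [hE]
    rw [Int.cast_add, Int.cast_mul, Int.cast_natCast, h1, mul_one, Int.cast_sum]
    rw [Finset.sum_eq_zero fun x _ => by rw [Int.cast_mul, Int.cast_mul, h2, zero_mul, mul_zero],
      add_zero]
  · have h2 : ((∏ j, M j : ℕ) : ZMod (M i)) = 0 :=
      (ZMod.natCast_eq_zero_iff _ _).2 (Finset.dvd_prod_of_mem _ (mem_univ i))
    rw [Int.cast_add, Int.cast_mul, Int.cast_natCast, h2, mul_zero, zero_add, Int.cast_sum,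
      Finset.sum_eq_single i]
    · rw [Int.cast_mul, Int.cast_mul, hh i, mul_one]
    · intro j _ hj
      have h3 : ((E j : ℤ) : ZMod (M i)) = 0 := by
        rw [Int.cast_natCast, ZMod.natCast_eq_zero_iff]
        exact dvd_mul_of_dvd_right
          (Finset.dvd_prod_of_mem _ (mem_erase.2 ⟨hj.symm, mem_univ i⟩)) _
      rw [Int.cast_mul, Int.cast_mul, h3, zero_mul, mul_zero]
    · simp

/-- The number of groups is close to its expected value. -/
theorem groups_close {I : Type} [Fintype I] (hI : 1 ≤ Fintype.card I) {U e : ℝ} (hU : 0 ≤ U)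
    (he : 0 ≤ e) (K F G : ℝ) (T : I → ℝ) (hK : |K - U| ≤ 2 * e * U) (hF : F ≤ K)
    (hF' : K ≤ F + Fintype.card I * (3 * e * U)) (hT : ∀ i, |T i - U| ≤ 2 * e * U)
    (hG : G = F + ∑ i, (T i - F)) : |G - U| ≤ 12 * (Fintype.card I : ℝ) ^ 2 * e * U := by
  set n : ℝ := (Fintype.card I : ℝ) with hn
  have hn1 : (1 : ℝ) ≤ n := by rw [hn]; exact_mod_cast hI
  have heU : 0 ≤ e * U := mul_nonneg he hU
  have h1 : ∀ i, |T i - F| ≤ (4 + 3 * n) * (e * U) := fun i => by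
    have h2 := abs_le.1 (hT i)
    have h3 := abs_le.1 hK
    rw [abs_le]
    constructor <;> nlinarith
  have h2 : |∑ i, (T i - F)| ≤ n * ((4 + 3 * n) * (e * U)) := by
    refine (Finset.abs_sum_le_sum_abs _ _).trans ?_
    refine (Finset.sum_le_sum fun i _ => h1 i).trans (le_of_eq ?_)
    rw [Finset.sum_const, Finset.card_univ, nsmul_eq_mul]
  have h3 := abs_le.1 hK
  have h4 := abs_le.1 h2
  rw [hG, abs_le]
  constructor <;> nlinarith [mul_nonneg (mul_nonneg (by linarith : 0 ≤ n - 1)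
    (by linarith : 0 ≤ n + 1)) heU, mul_nonneg (by linarith : 0 ≤ n - 1) heU]

/-- The amplitude of a class is close to the square root of its density. -/
theorem amp_close {U G p η d m Jμ w M : ℝ} (hp : 0 < p) (hp1 : p ≤ 1) (hm : 0 < m) (hw : 0 < w)
    (hJ : 0 < Jμ) (hη : 0 ≤ η) (hηd : η ≤ d) (hd : d ≤ 1 / 2) (hM : (1 - η) * Jμ ≤ M)
    (hM' : M ≤ Jμ) (hU : U = p * m * Jμ / w) (hG : |G - U| ≤ d * U) :
    |Real.sqrt (G * w / (m * M)) - Real.sqrt p| ≤ 4 * d := by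
  have hM0 : 0 < M := lt_of_lt_of_le (mul_pos (by linarith) hJ) hM
  have hU0 : 0 < U := by rw [hU]; positivity
  have hg := abs_le.1 hG
  set r := G / U * (Jμ / M) with hr
  have hx : G * w / (m * M) = p * r := by
    rw [hr, hU]
    field_simp
  have hr0 : 1 - d ≤ r := by
    have h1 : 1 - d ≤ G / U := by rw [le_div_iff₀ hU0]; nlinarith
    have h2 : 1 ≤ Jμ / M := by rw [le_div_iff₀ hM0]; linarith
    rw [hr]; nlinarith
  have hr1 : r ≤ 1 + 4 * d := by
    have h1 : G / U ≤ 1 + d := by rw [div_le_iff₀ hU0]; nlinarith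
    have h2 : Jμ / M ≤ 1 + 2 * d := by
      rw [div_le_iff₀ hM0]
      nlinarith [mul_le_mul_of_nonneg_left hM (by linarith : (0 : ℝ) ≤ 1 + 2 * d),
        mul_nonneg hJ.le (by nlinarith : (0 : ℝ) ≤ 2 * d - η - 2 * d * η)]
    have h3 : 0 ≤ Jμ / M := by positivity
    rw [hr]; nlinarith [mul_le_mul h1 h2 h3 (by linarith)]
  rw [hx, Real.sqrt_mul hp.le, ← mul_sub_one, abs_mul, abs_of_nonneg (Real.sqrt_nonneg p)]
  have hs : Real.sqrt p ≤ 1 := Real.sqrt_le_one.2 hp1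
  have hs2 : |Real.sqrt r - 1| ≤ 4 * d := by
    have h0 := Real.sq_sqrt (by linarith : (0 : ℝ) ≤ r)
    have h1 := Real.sqrt_nonneg r
    rw [abs_le]
    constructor <;> nlinarith
  calc Real.sqrt p * |Real.sqrt r - 1| ≤ 1 * (4 * d) :=
        mul_le_mul hs hs2 (abs_nonneg _) zero_le_one
    _ = 4 * d := one_mul _

end Vale.Agent.P110.Full
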