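import Mathlib
import Vale.Agent.P110.Full.Defs

/-!
Runs with the prescribed congruences cover every cell exactly once.
-/

noncomputable section

namespace Vale.Agent.P110.Full

open Finset

variable {I : Type} [Fintype I] [DecidableEq I] {q W : ℕ} [NeZero q]

theorem block_eq {B B' : ZMod (2 * q)} {x x' : ℕ} (hx : x < W) (hx' : x' < W)
    (h : ((W * B.val + x : ℕ) : ZMod (2 * q * W)) = ((W * B'.val + x' : ℕ) : ZMod (2 * q * W))) :
    B = B' ∧ x = x' := by
  have hlt : ∀ (C : ZMod (2 * q)) (z : ℕ), z < W → W * C.val + z < 2 * q * W := fun C z hz => by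
    have h1 : C.val + 1 ≤ 2 * q := C.val_lt
    nlinarith
  rw [ZMod.natCast_eq_natCast_iff', Nat.mod_eq_of_lt (hlt B x hx),
    Nat.mod_eq_of_lt (hlt B' x' hx')] at h
  have h1 := congrArg (· / W) h
  rw [Nat.mul_add_div (by omega), Nat.mul_add_div (by omega), Nat.div_eq_of_lt hx,
    Nat.div_eq_of_lt hx', add_zero, add_zero] at h1
  refine ⟨ZMod.val_injective _ h1, ?_⟩
  rw [h1] at h
  omega

theorem block_neg (B : ZMod (2 * q)) {x : ℕ} (hx : x < W) :
    (-((W * B.val + x : ℕ) : ZMod (2 * q * W)) - 1) =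
      ((W * (-1 - B).val + (W - 1 - x) : ℕ) : ZMod (2 * q * W)) := by
  obtain ⟨d, hd⟩ : ∃ d : ℤ, ((-1 - B : ZMod (2 * q)).val : ℤ) =
      -1 - (B.val : ℤ) + (2 * q : ℕ) * d := by
    have h : (((-1 - B : ZMod (2 * q)).val : ℤ) : ZMod (2 * q)) =
        ((-1 - (B.val : ℤ) : ℤ) : ZMod (2 * q)) := by simp
    obtain ⟨d, hd⟩ := (ZMod.intCast_eq_intCast_iff_dvd_sub _ _ _).1 h.symm
    exact ⟨d, by linarith⟩
  have h1 : ((W * (-1 - B).val + (W - 1 - x) : ℕ) : ℤ) =
      -((W * B.val + x : ℕ) : ℤ) - 1 + ((2 * q * W : ℕ) : ℤ) * d := by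
    have h2 : ((W - 1 - x : ℕ) : ℤ) = (W : ℤ) - 1 - x := by omega
    push_cast at hd ⊢
    rw [hd, h2]
    ring
  have h3 := congrArg (Int.cast : ℤ → ZMod (2 * q * W)) h1
  simp only [Int.cast_natCast, Int.cast_add, Int.cast_mul, Int.cast_sub, Int.cast_neg,
    Int.cast_one, ZMod.natCast_self, zero_mul, add_zero] at h3
  exact h3.symm

theorem sum_card_owned (o : ZMod (2 * q) → I × Bool) (ho : AntiOwner q o) :
    2 * ∑ i, Fintype.card {B // o B = (i, true)} = 2 * q := by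
  have hflip : ∀ i, Fintype.card {B // o B = (i, false)} = Fintype.card {B // o B = (i, true)} := by
    intro i
    refine Fintype.card_congr ((Equiv.subLeft (-1 : ZMod (2 * q))).subtypeEquiv fun B => ?_)
    simp only [Equiv.subLeft_apply, ho B]
    constructor <;> intro h <;> rcases hB : o B with ⟨j, b⟩ <;> simp_all
  have h1 : ∑ x : I × Bool, Fintype.card {B // o B = x} = 2 * q := by
    rw [← Fintype.card_sigma, Fintype.card_congr (Equiv.sigmaFiberEquiv o), ZMod.card]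
  rw [Fintype.sum_prod_type] at h1
  simp only [Fintype.sum_bool, hflip] at h1
  rw [Finset.mul_sum]
  exact (Finset.sum_congr rfl fun i _ => by omega).trans h1

/-- The runs of class `i`: block, aligned start, residue, line. -/
abbrev Line (q W : ℕ) (o : ZMod (2 * q) → I × Bool) (w M n : I → ℕ) : Type :=
  Σ i, ({B : ZMod (2 * q) // o B = (i, true)} × Fin (W / w i) × Fin (M i)) × Fin (n i)

theorem cover_bijective (o : ZMod (2 * q) → I × Bool) (ho : AntiOwner q o) (w M n : I → ℕ)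
    (hw : ∀ i, 0 < w i ∧ w i ∣ W) (P : ℕ) (hP : 0 < P)
    (hn : ∀ i, 2 * q * W * M i * n i = P)
    (hprod : ∀ i, M i * n i = ∏ j, M j)
    (base : ∀ i, {B : ZMod (2 * q) // o B = (i, true)} × Fin (W / w i) × Fin (M i) → ℤ)
    (hbaseW : ∀ i y, (base i y : ZMod (2 * q * W)) =
      ((W * y.1.1.val + w i * y.2.1 : ℕ) : ZMod (2 * q * W)))
    (hbaseM : ∀ i y, (base i y : ZMod (M i)) = ((y.2.2 : ℕ) : ZMod (M i))) :
    Function.Bijective fun x : (Σ r : Line q W o w M n, Fin (w r.1)) × Bool =>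
      if x.2 then (((base x.1.1.1 x.1.1.2.1 + (2 * q * W * M x.1.1.1 : ℕ) * (x.1.1.2.2 : ℕ)) +
        (x.1.2 : ℕ) : ℤ) : ZMod P)
      else ((-((base x.1.1.1 x.1.1.2.1 + (2 * q * W * M x.1.1.1 : ℕ) * (x.1.1.2.2 : ℕ)) +
        (x.1.2 : ℕ)) - 1 : ℤ) : ZMod P) := by
  have : NeZero P := ⟨hP.ne'⟩
  set pos : (Σ r : Line q W o w M n, Fin (w r.1)) → ℤ := fun z =>
    (base z.1.1 z.1.2.1 + (2 * q * W * M z.1.1 : ℕ) * (z.1.2.2 : ℕ)) + (z.2 : ℕ) with hpos
  have hlt : ∀ z : (Σ r : Line q W o w M n, Fin (w r.1)),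
      w z.1.1 * (z.1.2.1.2.1 : ℕ) + (z.2 : ℕ) < W := by
    rintro ⟨⟨i, ⟨B, l, r⟩, j⟩, k⟩
    obtain ⟨-, hd⟩ := hw i
    have hl : (l : ℕ) + 1 ≤ W / w i := l.2
    have hk : (k : ℕ) < w i := k.2
    calc w i * (l : ℕ) + (k : ℕ) < w i * ((l : ℕ) + 1) := by linarith [mul_add (w i) (l : ℕ) 1]
      _ ≤ w i * (W / w i) := Nat.mul_le_mul_left _ hl
      _ = W := Nat.mul_div_cancel' hd
  have hW' : ∀ z, ((pos z : ℤ) : ZMod (2 * q * W)) =
      ((W * z.1.2.1.1.1.val + (w z.1.1 * (z.1.2.1.2.1 : ℕ) + (z.2 : ℕ)) : ℕ) :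
        ZMod (2 * q * W)) := by
    intro z
    simp only [hpos, Int.cast_add, Int.cast_mul, Int.cast_natCast, hbaseW, Nat.cast_mul,
      Nat.cast_add]
    have : ((2 : ZMod (2 * q * W)) * q * W) = 0 := by
      exact_mod_cast ZMod.natCast_self (2 * q * W)
    rw [show ((2 : ℕ) : ZMod (2 * q * W)) = 2 from rfl]
    linear_combination (M z.1.1 : ZMod (2 * q * W)) * ((z.1.2.2 : ℕ) : ZMod (2 * q * W)) * this
  have hinj : ∀ z z', ((pos z : ℤ) : ZMod P) = ((pos z' : ℤ) : ZMod P) → z = z' := by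
    intro z z' h
    have hd : ∀ d : ℕ, d ∣ P → ((pos z : ℤ) : ZMod d) = ((pos z' : ℤ) : ZMod d) := fun d hd => by
      rw [ZMod.intCast_eq_intCast_iff_dvd_sub] at h ⊢
      exact (Int.natCast_dvd_natCast.2 hd).trans h
    have hW := hd (2 * q * W) ⟨M z.1.1 * n z.1.1, by rw [← hn z.1.1]; ring⟩
    rw [hW', hW'] at hW
    obtain ⟨hB, hx⟩ := block_eq (hlt z) (hlt z') hW
    obtain ⟨⟨i, ⟨⟨B, hoB⟩, l, r⟩, j⟩, k⟩ := z
    obtain ⟨⟨i', ⟨⟨B', hoB'⟩, l', r'⟩, j'⟩, k'⟩ := z'
    simp only at hB hx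
    subst hB
    obtain rfl : i = i' := congrArg Prod.fst (hoB.symm.trans hoB')
    have hk : (k : ℕ) = k' := by
      have h2 := congrArg (· % w i) hx
      simpa [Nat.mul_add_mod, Nat.mod_eq_of_lt k.2, Nat.mod_eq_of_lt k'.2] using h2
    have hl : (l : ℕ) = l' := by
      have h2 : w i * (l : ℕ) = w i * (l' : ℕ) := by omega
      exact Nat.eq_of_mul_eq_mul_left (hw i).1 h2
    obtain rfl := Fin.ext hk
    obtain rfl := Fin.ext hl
    have hM' := hd (M i) ⟨2 * q * W * n i, by rw [← hn i]; ring⟩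
    simp only [hpos, Int.cast_add, Int.cast_mul, Int.cast_natCast, hbaseM, Nat.cast_mul,
      ZMod.natCast_self, mul_zero, zero_mul, add_zero, add_left_inj] at hM'
    rw [ZMod.natCast_eq_natCast_iff', Nat.mod_eq_of_lt r.2, Nat.mod_eq_of_lt r'.2] at hM'
    obtain rfl := Fin.ext hM'
    rw [ZMod.intCast_eq_intCast_iff_dvd_sub] at h
    simp only [hpos] at h
    obtain ⟨d, hd'⟩ := h
    have hP' : ((2 * q * W * M i : ℕ) : ℤ) * (n i : ℤ) = (P : ℤ) := by exact_mod_cast hn i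
    have hQ0 : ((2 * q * W * M i : ℕ) : ℤ) ≠ 0 := by
      intro h0
      rw [h0, zero_mul] at hP'
      omega
    have h4 : ((j' : ℕ) : ℤ) - (j : ℕ) = (n i : ℤ) * d := by
      apply mul_left_cancel₀ hQ0
      rw [← mul_assoc, hP', ← hd']
      ring
    have hd0 : d = 0 := by
      by_contra hne
      have h5 : (n i : ℤ) ≤ |(n i : ℤ) * d| := by
        rw [abs_mul, Nat.abs_cast]
        exact le_mul_of_one_le_right (by positivity) (Int.one_le_abs hne)
      rw [← h4] at h5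
      have := j.2; have := j'.2
      rcases abs_cases (((j' : ℕ) : ℤ) - (j : ℕ)) with ⟨e, -⟩ | ⟨e, -⟩ <;> omega
    rw [hd0, mul_zero, sub_eq_zero] at h4
    obtain rfl : j = j' := Fin.ext (by exact_mod_cast h4.symm)
    rfl
  have hne : ∀ z z', ((pos z : ℤ) : ZMod P) ≠ ((-pos z' - 1 : ℤ) : ZMod P) := by
    intro z z' h
    have hW : ((pos z : ℤ) : ZMod (2 * q * W)) = ((-pos z' - 1 : ℤ) : ZMod (2 * q * W)) := by
      rw [ZMod.intCast_eq_intCast_iff_dvd_sub] at h ⊢
      exact (Int.natCast_dvd_natCast.2 ⟨M z.1.1 * n z.1.1, by rw [← hn z.1.1]; ring⟩).trans h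
    have := hlt z'
    rw [Int.cast_sub, Int.cast_neg, Int.cast_one, hW', hW', block_neg _ (hlt z')] at hW
    obtain ⟨hB, -⟩ := block_eq (hlt z) (by omega) hW
    have h1 := z.1.2.1.1.2
    rw [hB, ho, z'.1.2.1.1.2] at h1
    simp at h1
  rw [Fintype.bijective_iff_injective_and_card]
  refine ⟨?_, ?_⟩
  · rintro ⟨z, b⟩ ⟨z', b'⟩ h
    cases b <;> cases b' <;> simp only [Bool.false_eq_true, if_false, if_true] at h
    · have h' : ((pos z : ℤ) : ZMod P) = ((pos z' : ℤ) : ZMod P) := by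
        have := congrArg (fun x : ZMod P => -(x + 1)) h
        simpa [hpos] using this
      rw [hinj z z' h']
    · exact absurd h.symm (hne z' z)
    · exact absurd h (hne z z')
    · rw [hinj z z' h]
  · simp only [Fintype.card_prod, Fintype.card_sigma, Fintype.card_fin, Fintype.card_bool,
      ZMod.card]
    rw [Fintype.sum_sigma]
    simp only [Finset.sum_const, Finset.card_univ, Fintype.card_prod, Fintype.card_fin,
      smul_eq_mul]
    have hterm : ∀ i, Fintype.card {B // o B = (i, true)} * (W / w i * M i) * n i * w i =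
        Fintype.card {B // o B = (i, true)} * (W * ∏ j, M j) := fun i => by
      rw [← hprod i]
      calc _ = Fintype.card {B // o B = (i, true)} * ((W / w i * w i) * (M i * n i)) := by ring
        _ = _ := by rw [Nat.div_mul_cancel (hw i).2]
    rcases isEmpty_or_nonempty I with hI | ⟨⟨i₀⟩⟩
    · have := sum_card_owned o ho
      simp [NeZero.ne q] at this
    rw [Finset.sum_congr rfl (fun i _ => hterm i), ← Finset.sum_mul, ← hn i₀, mul_assoc (2*q*W),
      hprod i₀]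
    calc _ = (2 * ∑ i, Fintype.card {B // o B = (i, true)}) * (W * ∏ j, M j) := by ring
      _ = _ := by rw [sum_card_owned o ho]; ring

end Vale.Agent.P110.Full
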