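import Mathlib
import Vale.Agent.P110.Full.Assembly.Cover
import Vale.Agent.P110.Full.Assembly.Arith

/-!
Tiling data built from distributed residues, and the bound on each of its slots.
-/

noncomputable section

namespace Vale.Agent.P110.Full

open Finset

/-- The aligned starts of class `i`. -/
abbrev St {I : Type} (q W : ℕ) (o : ZMod (2 * q) → I × Bool) (w : I → ℕ) (i : I) : Type :=
  {B : ZMod (2 * q) // o B = (i, true)} × Fin (W / w i)

theorem exists_runs {I : Type} [Fintype I] [DecidableEq I] {X : Type} {R q W : ℕ} [NeZero q]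
    (hW : 0 < W) (o : ZMod (2 * q) → I × Bool) (ho : AntiOwner q o) (w : I → ℕ)
    (hw : ∀ i, 0 < w i ∧ w i ∣ W) (M : I → ℕ) (hM : ∀ i, 0 < M i)
    (hc : ∀ i j, i ≠ j → (M i).Coprime (M j)) (hm : ∀ i, (2 * q * W).Coprime (M i))
    (h1 : ((∏ i, M i : ℕ) : ZMod (2 * q * W)) = 1)
    (v : I → Fin R → ℤ) (u : Fin R → ℤ) (hu : ∀ i, ∑ l, v i l * u l = w i)
    (θ : I → ℝ) (B : Fin R → ℤ) (b : I → ℤ) (β : ∀ i, Fin (∏ j ∈ univ.erase i, M j) → ℝ)
    (hvB : ∀ i, ∑ l, v i l * B l = (M i : ℤ) * b i)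
    (hβ : ∀ i (k : ℤ), ch ((b i : ℝ) * k ^ 2 / (∏ j ∈ univ.erase i, M j : ℕ)) =
        (Real.sqrt (∏ j ∈ univ.erase i, M j : ℕ) : ℂ)⁻¹ *
          ∑ t : Fin (∏ j ∈ univ.erase i, M j),
            ch (β i t - (t : ℕ) * k / (∏ j ∈ univ.erase i, M j : ℕ)))
    (F : Finset X) (d : I → ℕ)
    (Φ : ∀ i, {x // x ∈ F} ⊕ Fin (d i) ≃ St q W o w i × Fin (M i))
    (z : {x // x ∈ F} → Fin R → ℤ)
    (hzW : ∀ i x, ((∑ l, v i l * z x l : ℤ) : ZMod (2 * q * W)) =
      ((W * (Φ i (Sum.inl x)).1.1.1.val + w i * (Φ i (Sum.inl x)).1.2 : ℕ) : ZMod (2 * q * W)))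
    (hzM : ∀ i x, ((∑ l, v i l * z x l : ℤ) : ZMod (M i)) =
      (((Φ i (Sum.inl x)).2 : ℕ) : ZMod (M i)))
    (G : ℕ) (hG : G = F.card + ∑ i, d i) (hG0 : 0 < G) (amp : I → ℝ)
    (hamp : ∀ i, amp i = Real.sqrt ((G : ℝ) * w i / ((2 * q * W : ℕ) * (M i : ℝ))))
    {c : ℝ} (hfull : ∀ φ : Fin R → ℝ,
      |∑ i, 2 * amp i * (ch (θ i + ∑ l, (v i l : ℝ) * φ l)).re| ≤ c)
    (hone : ∀ i, 2 * amp i ≤ c) :
    ∃ D : Runs, ∀ g k Y, |D.slot g k Y| ≤ c := by
  classical
  set Q := ∏ i, M i with hQ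
  set P := 2 * q * W * Q with hP
  have hq : 0 < q := Nat.pos_of_ne_zero (NeZero.ne q)
  have hP0 : 0 < P := by
    have : 0 < Q := Finset.prod_pos fun i _ => hM i
    positivity
  have hMn : ∀ i, M i * (∏ j ∈ univ.erase i, M j) = Q := fun i =>
    Finset.mul_prod_erase univ M (mem_univ i)
  have hn : ∀ i, 2 * q * W * M i * (∏ j ∈ univ.erase i, M j) = P := fun i => by
    rw [mul_assoc, hMn]
  set e : ∀ i, {x // x ∈ F} ⊕ Fin (d i) ≃
      {B : ZMod (2 * q) // o B = (i, true)} × Fin (W / w i) × Fin (M i) := fun i =>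
    (Φ i).trans (Equiv.prodAssoc _ _ _) with he
  have hsingle : ∀ i (y : {B : ZMod (2 * q) // o B = (i, true)} × Fin (W / w i) × Fin (M i)),
      ∃ a : ℤ, (a : ZMod (2 * q * W)) =
          ((W * y.1.1.val + w i * y.2.1 : ℕ) : ZMod (2 * q * W)) ∧
        (a : ZMod (M i)) = ((y.2.2 : ℕ) : ZMod (M i)) := fun i y => by
    obtain ⟨a, ha, ha'⟩ := exists_crt (2 * q * W) M hm hc h1
      (W * y.1.1.val + w i * y.2.1 : ℕ) (fun _ => ((y.2.2 : ℕ) : ℤ))
    exact ⟨a, by rw [ha, Int.cast_natCast], by rw [ha' i, Int.cast_natCast]⟩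
  choose a₀ ha₀ ha₀' using hsingle
  set base : ∀ i, {B : ZMod (2 * q) // o B = (i, true)} × Fin (W / w i) × Fin (M i) → ℤ :=
    fun i y => Sum.elim (fun x => ∑ l, v i l * z x l) (fun _ => a₀ i y) ((e i).symm y) with hbase
  have hbaseW : ∀ i y, (base i y : ZMod (2 * q * W)) =
      ((W * y.1.1.val + w i * y.2.1 : ℕ) : ZMod (2 * q * W)) := by
    intro i y
    simp only [hbase]
    rcases h : (e i).symm y with x | t
    · obtain rfl := (Equiv.symm_apply_eq _).1 h
      exact hzW i x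
    · exact ha₀ i y
  have hbaseM : ∀ i y, (base i y : ZMod (M i)) = ((y.2.2 : ℕ) : ZMod (M i)) := by
    intro i y
    simp only [hbase]
    rcases h : (e i).symm y with x | t
    · obtain rfl := (Equiv.symm_apply_eq _).1 h
      exact hzM i x
    · exact ha₀' i y
  set n : I → ℕ := fun i => ∏ j ∈ univ.erase i, M j with hn'
  set grp : ∀ i, {B : ZMod (2 * q) // o B = (i, true)} × Fin (W / w i) × Fin (M i) →
      {x // x ∈ F} ⊕ (Σ i, Fin (d i)) := fun i y =>
    Sum.map id (Sigma.mk i) ((e i).symm y) with hgrp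
  have hcard : Fintype.card ({x // x ∈ F} ⊕ (Σ i, Fin (d i))) = G := by simp [hG]
  set num := Fintype.equivFinOfCardEq hcard with hnum
  let D : Runs :=
    { P := P
      G := G
      P_pos := hP0
      G_pos := hG0
      ι := Line q W o w M n
      fintype := inferInstance
      a := fun r => base r.1 r.2.1 + ((2 * q * W * M r.1 : ℕ) : ℤ) * (r.2.2 : ℕ)
      w := fun r => w r.1
      w_pos := fun r => (hw r.1).1
      time := fun r => num (grp r.1 r.2.1)
      β := fun r => β r.1 r.2.2 + θ r.1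
      cover := cover_bijective o ho w M n hw P hP0 hn hMn base hbaseW hbaseM }
  refine ⟨D, fun g k Y => ?_⟩
  obtain ⟨γ, hγ⟩ : ∃ γ, num γ = g := ⟨num.symm g, num.apply_symm_apply g⟩
  set T : ∀ i, {B : ZMod (2 * q) // o B = (i, true)} × Fin (W / w i) × Fin (M i) → ℝ :=
    fun i y => 2 * amp i *
      (ch (θ i + ((b i : ℝ) * k ^ 2 / (n i : ℕ) - base i y * k / P - w i * Y))).re with hT
  have hline : ∀ i y, (∑ t : Fin (n i), 2 * Real.sqrt ((G : ℝ) * w i / P) *
      Real.cos (2 * Real.pi * (β i t + θ i -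
        ((base i y + ((2 * q * W * M i : ℕ) : ℤ) * (t : ℕ) : ℤ) : ℝ) * k / P - w i * Y))) =
      T i y := by
    intro i y
    have hn0 : 0 < n i := Finset.prod_pos fun j _ => hM j
    have hD0 : ((2 * q * W * M i : ℕ) : ℝ) ≠ 0 := by
      have := hM i
      positivity
    have hncast : (n i : ℝ) = ∏ j ∈ univ.erase i, (M j : ℝ) := by simp [hn']
    rw [← Finset.mul_sum]
    push_cast
    rw [sum_lines hn0 (β i) (b i) (hβ i) (θ i) (base i y) (2 * q * W * M i) P (w i) Y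
      (by rw [← hn i, hncast]; push_cast; ring) (by exact_mod_cast hD0) k]
    simp only [hT, hamp i]
    rw [← mul_assoc, mul_assoc (2 : ℝ), ← Real.sqrt_mul (by positivity)]
    congr 3
    rw [← hn i]
    push_cast
    rw [hncast]
    have hpr : (∏ j ∈ univ.erase i, (M j : ℝ)) ≠ 0 := hncast ▸ Nat.cast_ne_zero.2 hn0.ne'
    have hM0 : (M i : ℝ) ≠ 0 := Nat.cast_ne_zero.2 (hM i).ne'
    field_simp
  have hslot : D.slot g k Y = ∑ i, ∑ y : {x // x ∈ F} ⊕ Fin (d i),
      if Sum.map id (Sigma.mk i) y = γ then T i (e i y) else 0 := by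
    have h : D.slot g k Y = ∑ r : Line q W o w M n, if num (grp r.1 r.2.1) = g then
        2 * Real.sqrt ((G : ℝ) * w r.1 / P) * Real.cos (2 * Real.pi * (β r.1 r.2.2 + θ r.1 -
          ((base r.1 r.2.1 + ((2 * q * W * M r.1 : ℕ) : ℤ) * (r.2.2 : ℕ) : ℤ) : ℝ) * k / P -
            w r.1 * Y)) else 0 := rfl
    rw [h, Fintype.sum_sigma]
    refine Finset.sum_congr rfl fun i _ => ?_
    rw [Fintype.sum_prod_type]
    refine (Fintype.sum_equiv (e i) _ _ fun y => ?_).symm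
    simp only [hgrp, Equiv.symm_apply_apply, ← hγ, num.injective.eq_iff]
    split_ifs with hy
    · exact (hline i _).symm
    · simp
  rw [hslot]
  simp only [Fintype.sum_sum_type, Sum.map_inl, Sum.map_inr, id]
  rcases γ with x | ⟨i₀, t₀⟩
  · simp only [Sum.inl.injEq, reduceCtorEq, if_false, Finset.sum_const_zero, add_zero,
      Finset.sum_ite_eq', mem_univ, if_true]
    set φ : Fin R → ℝ := fun l =>
      (B l : ℝ) * ((k : ℝ) ^ 2 / Q) - (z x l : ℝ) * (k / P) - (u l : ℝ) * Y with hφ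
    refine le_of_eq_of_le ?_ (hfull φ)
    congr 1
    refine Finset.sum_congr rfl fun i _ => ?_
    have hb : base i (e i (Sum.inl x)) = ∑ l, v i l * z x l := by simp [hbase]
    have e1 : ∑ l, (v i l : ℝ) * B l = (M i : ℝ) * b i := by exact_mod_cast hvB i
    have e2 : ∑ l, (v i l : ℝ) * u l = (w i : ℝ) := by exact_mod_cast hu i
    have e3 : ∑ l, (v i l : ℝ) * φ l =
        (∑ l, (v i l : ℝ) * B l) * ((k : ℝ) ^ 2 / Q) -
          (∑ l, (v i l : ℝ) * z x l) * (k / P) - (∑ l, (v i l : ℝ) * u l) * Y := by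
      simp only [hφ, Finset.sum_mul, ← Finset.sum_sub_distrib]
      exact Finset.sum_congr rfl fun l _ => by ring
    simp only [hT, hb, e3, e1, e2]
    congr 4
    have hM0 : (M i : ℝ) ≠ 0 := Nat.cast_ne_zero.2 (hM i).ne'
    rw [← hMn i]
    push_cast [hn']
    field_simp
  · simp only [reduceCtorEq, if_false, Finset.sum_const_zero, zero_add, Sum.inr.injEq]
    rw [← Finset.sum_sigma' univ (fun i => univ)
      (fun i t => if Sigma.mk i t = ⟨i₀, t₀⟩ then T i (e i (Sum.inr t)) else 0) |>.symm]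
    rw [Finset.univ_sigma_univ, Finset.sum_ite_eq' univ (⟨i₀, t₀⟩ : Σ i, Fin (d i))
      (fun p => T p.1 (e p.1 (Sum.inr p.2))), if_pos (mem_univ _)]
    simp only [hT]
    have h2 : 0 ≤ 2 * amp i₀ := by rw [hamp]; positivity
    rw [abs_mul, abs_of_nonneg h2]
    refine le_trans ?_ (hone i₀)
    calc _ ≤ 2 * amp i₀ * 1 := mul_le_mul_of_nonneg_left
          ((Complex.abs_re_le_norm _).trans (norm_ch _).le) h2
      _ = _ := mul_one _

end Vale.Agent.P110.Full
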