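import Mathlib
import Vale.Agent.P110.Full.Statements
import Vale.Agent.P110.Full.Assembly.Runs

/-!
The start of each class of a good group, and the residues of a group modulo all the moduli.
-/

noncomputable section

namespace Vale.Agent.P110.Full

open Finset

variable {I : Type} [Fintype I] [DecidableEq I] {R q W : ℕ} [NeZero q]

/-- The start of class `i` of a good group. -/
def startOf (hW : 0 < W) (v : I → Fin R → ℤ) (w : I → ℕ) (hw : ∀ i, 0 < w i ∧ w i ∣ W)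
    (o : ZMod (2 * q) → I × Bool) (i : I)
    (x : {x : (Fin R → ZMod (2 * q)) × Fin W // Good q W v w o x}) : St q W o w i :=
  (⟨(∑ l, (v i l : ZMod (2 * q)) * x.1.1 l) + ((w i * (x.1.2 : ℕ) / W : ℕ) : ZMod (2 * q)),
      x.2 i⟩,
    ⟨(x.1.2 : ℕ) % (W / w i),
      Nat.mod_lt _ (Nat.div_pos (Nat.le_of_dvd hW (hw i).2) (hw i).1)⟩)

omit [Fintype I] [DecidableEq I] in
theorem startOf_cast (hW : 0 < W) (v : I → Fin R → ℤ) (w : I → ℕ)
    (hw : ∀ i, 0 < w i ∧ w i ∣ W) (o : ZMod (2 * q) → I × Bool) (i : I)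
    (x : {x : (Fin R → ZMod (2 * q)) × Fin W // Good q W v w o x}) :
    (((W : ℤ) * ∑ l, v i l * ((x.1.1 l).val : ℤ) + (w i * (x.1.2 : ℕ) : ℕ) : ℤ) :
        ZMod (2 * q * W)) =
      ((W * (startOf hW v w hw o i x).1.1.val + w i * (startOf hW v w hw o i x).2 : ℕ) :
        ZMod (2 * q * W)) := by
  set t := (x.1.2 : ℕ) with ht
  set h := W / w i with hh
  have hWh : w i * h = W := Nat.mul_div_cancel' (hw i).2
  have hdiv : w i * t / W = t / h := by rw [← hWh, Nat.mul_div_mul_left _ _ (hw i).1]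
  set B0 := (startOf hW v w hw o i x).1.1 with hB0
  have hB : ((B0.val : ℤ) : ZMod (2 * q)) =
      ((∑ l, v i l * ((x.1.1 l).val : ℤ) + (t / h : ℕ) : ℤ) : ZMod (2 * q)) := by
    rw [← hdiv]
    simp only [hB0, startOf, ht, Int.cast_natCast, Int.cast_add, Int.cast_sum, Int.cast_mul,
      ZMod.natCast_zmod_val]
  obtain ⟨d, hd⟩ := (ZMod.intCast_eq_intCast_iff_dvd_sub _ _ _).1 hB
  have hl : ((startOf hW v w hw o i x).2 : ℕ) = t % h := rfl
  rw [hl, ← Int.cast_natCast (R := ZMod (2 * q * W)) (W * B0.val + w i * (t % h))]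
  rw [ZMod.intCast_eq_intCast_iff_dvd_sub]
  refine ⟨-d, ?_⟩
  have h2 : (t : ℤ) = (t % h : ℕ) + (h : ℤ) * (t / h : ℕ) := by
    exact_mod_cast (Nat.mod_add_div t h).symm
  have h3 : (W : ℤ) = (w i : ℤ) * h := by exact_mod_cast hWh.symm
  push_cast at hd h2 ⊢
  linear_combination -(W : ℤ) * hd - (w i : ℤ) * h2 + ((t : ℤ) / (h : ℤ)) * h3

omit [Fintype I] [DecidableEq I] in
theorem startOf_eq_iff (hW : 0 < W) (v : I → Fin R → ℤ) (w : I → ℕ)
    (hw : ∀ i, 0 < w i ∧ w i ∣ W) (o : ZMod (2 * q) → I × Bool) (i : I)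
    (x : {x : (Fin R → ZMod (2 * q)) × Fin W // Good q W v w o x}) (s : St q W o w i) :
    startOf hW v w hw o i x = s ↔
      StartsAt q W v w i x.1
        (((W : ℤ) * ((s.1 : ZMod (2 * q)).val : ℤ) + (w i * (s.2 : ℕ) : ℕ) : ℤ) :
          ZMod (2 * q * W)) := by
  have hlt : ∀ l : Fin (W / w i), w i * (l : ℕ) < W := fun l =>
    lt_of_lt_of_le (Nat.mul_lt_mul_of_pos_left l.2 (hw i).1) (le_of_eq (Nat.mul_div_cancel' (hw i).2))
  have h1 : (((W : ℤ) * ((s.1 : ZMod (2 * q)).val : ℤ) + (w i * (s.2 : ℕ) : ℕ) : ℤ) :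
      ZMod (2 * q * W)) = ((W * (s.1 : ZMod (2 * q)).val + w i * (s.2 : ℕ) : ℕ) :
        ZMod (2 * q * W)) := by
    rw [← Int.cast_natCast (R := ZMod (2 * q * W)) (W * (s.1 : ZMod (2 * q)).val + _)]
    congr 1
  rw [StartsAt, h1, startOf_cast hW v w hw o i x]
  constructor
  · rintro rfl
    rfl
  · intro h
    obtain ⟨hB, hl⟩ := block_eq (hlt _) (hlt _) h
    exact Prod.ext (Subtype.ext hB) (Fin.ext (Nat.eq_of_mul_eq_mul_left (hw i).1 hl))

theorem card_fibre (hW : 0 < W) (v : I → Fin R → ℤ) (w : I → ℕ)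
    (hw : ∀ i, 0 < w i ∧ w i ∣ W) (o : ZMod (2 * q) → I × Bool) (J : ℕ) (i : I) (s : St q W o w i)
    [Fintype ({x : (Fin R → ZMod (2 * q)) × Fin W // Good q W v w o x} × Fin J)] :
    (univ.filter fun y : {x : (Fin R → ZMod (2 * q)) × Fin W // Good q W v w o x} × Fin J =>
        startOf hW v w hw o i y.1 = s).card =
      Nat.card {x : (Fin R → ZMod (2 * q)) × Fin W // Good q W v w o x ∧
        StartsAt q W v w i x
          (((W : ℤ) * ((s.1 : ZMod (2 * q)).val : ℤ) + (w i * (s.2 : ℕ) : ℕ) : ℤ) :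
            ZMod (2 * q * W))} * J := by
  let e : {y : {x : (Fin R → ZMod (2 * q)) × Fin W // Good q W v w o x} × Fin J //
      startOf hW v w hw o i y.1 = s} ≃
      {x : (Fin R → ZMod (2 * q)) × Fin W // Good q W v w o x ∧ StartsAt q W v w i x
          (((W : ℤ) * ((s.1 : ZMod (2 * q)).val : ℤ) + (w i * (s.2 : ℕ) : ℕ) : ℤ) :
            ZMod (2 * q * W))} × Fin J :=
    { toFun := fun y => (⟨y.1.1.1, y.1.1.2, (startOf_eq_iff hW v w hw o i _ s).1 y.2⟩, y.1.2)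
      invFun := fun y => ⟨(⟨y.1.1, y.1.2.1⟩, y.2),
        (startOf_eq_iff hW v w hw o i ⟨y.1.1, y.1.2.1⟩ s).2 y.1.2.2⟩
      left_inv := fun y => rfl
      right_inv := fun y => rfl }
  rw [← Fintype.card_subtype, ← Nat.card_eq_fintype_card, Nat.card_congr e, Nat.card_prod,
    Nat.card_fin]

omit [NeZero q] in
theorem exists_residues (v : I → Fin R → ℤ) (ξ : I → Fin R → ℤ)
    (hξ : ∀ i, ∑ l, v i l * ξ i l = 1) (M : I → ℕ) (hm : ∀ i, (2 * q * W).Coprime (M i))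
    (hc : ∀ i j, i ≠ j → (M i).Coprime (M j))
    (h1 : ((∏ i, M i : ℕ) : ZMod (2 * q * W)) = 1) (u : Fin R → ℤ)
    (x : (Fin R → ZMod (2 * q)) × Fin W) (r : I → ℕ) :
    ∃ z : Fin R → ℤ, ∀ i,
      ((∑ l, v i l * z l : ℤ) : ZMod (2 * q * W)) =
        (((W : ℤ) * ∑ l, v i l * ((x.1 l).val : ℤ) + (∑ l, v i l * u l) * (x.2 : ℕ) : ℤ) :
          ZMod (2 * q * W)) ∧
      ((∑ l, v i l * z l : ℤ) : ZMod (M i)) = ((r i : ℕ) : ZMod (M i)) := by
  choose z hzW hzM using fun l => exists_crt (2 * q * W) M hm hc h1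
    ((W : ℤ) * ((x.1 l).val : ℤ) + u l * (x.2 : ℕ)) (fun i => (r i : ℤ) * ξ i l)
  refine ⟨z, fun i => ⟨?_, ?_⟩⟩
  · have h : ((∑ l, v i l * z l : ℤ) : ZMod (2 * q * W)) = ((∑ l, v i l *
        ((W : ℤ) * ((x.1 l).val : ℤ) + u l * (x.2 : ℕ)) : ℤ) : ZMod (2 * q * W)) := by
      simp only [Int.cast_sum, Int.cast_mul, hzW]
    rw [h]
    congr 1
    simp only [Finset.mul_sum, Finset.sum_mul, ← Finset.sum_add_distrib]
    exact Finset.sum_congr rfl fun l _ => by ring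
  · have h : ((∑ l, v i l * z l : ℤ) : ZMod (M i)) =
        ((∑ l, v i l * ((r i : ℤ) * ξ i l) : ℤ) : ZMod (M i)) := by
      simp only [Int.cast_sum, Int.cast_mul, hzM]
    rw [h, ← Int.cast_natCast (R := ZMod (M i)) (r i)]
    congr 1
    simp only [mul_left_comm (v i _), ← Finset.mul_sum, hξ, mul_one]

end Vale.Agent.P110.Full
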