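import Mathlib
import Vale.Agent.P110.Full.Assembly.Arith
import Vale.Agent.P110.Full.Assembly.Starts

/-!
Counting the groups of a class against the expected number.
-/

noncomputable section

namespace Vale.Agent.P110.Full

open Finset

theorem fibre_bounds {Y S : Type} [Fintype Y] [Fintype S] [DecidableEq S] (f : Y → S) (a : ℝ)
    (M : ℕ) {η D : ℝ} (ha : 0 ≤ a) (hη : 0 ≤ η) (hM : (1 - η) * a ≤ M)
    (hD : ∑ s, |((univ.filter fun y => f y = s).card : ℝ) - a| ≤ D) :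
    |(Fintype.card Y : ℝ) - Fintype.card S * a| ≤ D ∧
      ((∑ s, ((univ.filter fun y => f y = s).card - M) : ℕ) : ℝ) ≤
        D + η * (Fintype.card S * a) := by
  constructor
  · refine le_trans ?_ hD
    refine le_of_eq_of_le ?_ (Finset.abs_sum_le_sum_abs _ _)
    rw [Finset.sum_sub_distrib, Finset.sum_const, Finset.card_univ, nsmul_eq_mul,
      ← Nat.cast_sum, ← Finset.card_eq_sum_card_fiberwise (fun _ _ => mem_univ _),
      Finset.card_univ]
  · push_cast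
    refine le_trans (Finset.sum_le_sum (g := fun s =>
      |((univ.filter fun y => f y = s).card : ℝ) - a| + η * a) fun s _ => ?_) ?_
    · have h' : 0 ≤ η * a := mul_nonneg hη ha
      rcases le_total (univ.filter fun y => f y = s).card M with hle | hle
      · rw [Nat.sub_eq_zero_of_le hle, Nat.cast_zero]
        positivity
      · rw [Nat.cast_sub hle]
        linarith [le_abs_self (((univ.filter fun y => f y = s).card : ℝ) - a)]
    · rw [Finset.sum_add_distrib, Finset.sum_const, Finset.card_univ, nsmul_eq_mul]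
      exact add_le_add hD (le_of_eq (by ring))

theorem class_close {S a M U K X e η : ℝ} (hS : 0 ≤ S) (ha : 0 ≤ a) (hU : 0 ≤ U) (he : 0 ≤ e)
    (hηe : η ≤ e) (he1 : e ≤ 1 / 2) (hM : (1 - η) * a ≤ M) (hM' : M ≤ a)
    (hSa : |S * a - U| ≤ e * U) (hK : |K - S * a| ≤ e * U) (hX : X ≤ e * U + η * (S * a)) :
    |S * M - U| ≤ 2 * e * U ∧ |K - U| ≤ 2 * e * U ∧ X ≤ 3 * e * U := by
  have h1 := mul_le_mul_of_nonneg_left hM hS
  have h2 := mul_le_mul_of_nonneg_left hM' hS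
  have h3 := abs_le.1 hSa
  have h4 := abs_le.1 hK
  have hSa0 : 0 ≤ S * a := mul_nonneg hS ha
  have h5 := mul_le_mul_of_nonneg_right hηe hSa0
  have heU : 0 ≤ e * U := mul_nonneg he hU
  have h6 := mul_le_mul_of_nonneg_left h3.2 he
  have h7 := mul_le_mul_of_nonneg_right he1 heU
  refine ⟨abs_le.2 ⟨?_, ?_⟩, abs_le.2 ⟨?_, ?_⟩, ?_⟩ <;> nlinarith

/-- The three counting facts of one class. -/
theorem class_counts {I : Type} [Fintype I] [DecidableEq I] {R q W : ℕ} [NeZero q] (hW : 0 < W)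
    (v : I → Fin R → ℤ) (w : I → ℕ) (hw : ∀ i, 0 < w i ∧ w i ∣ W)
    (o : ZMod (2 * q) → I × Bool) (J M : ℕ) (i : I) {μ p η e U : ℝ} (hμ : 0 < μ) (hp : 0 < p)
    (he : 0 ≤ e) (hη : 0 ≤ η) (hηp : η ≤ e * p) (hηe : η ≤ e) (he1 : e ≤ 1 / 2)
    (hU : U = (2 * q * p : ℝ) * ((W / w i : ℕ) : ℝ) * ((J : ℝ) * μ))
    (hM : (1 - η) * ((J : ℝ) * μ) ≤ M) (hM' : (M : ℝ) ≤ (J : ℝ) * μ)
    (hK : |(Nat.card {B // o B = (i, true)} : ℝ) - 2 * q * p| ≤ η * (2 * q))
    (hN : ∑ᶠ B : {B // o B = (i, true)}, ∑ l ∈ Finset.range (W / w i),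
          |(Nat.card {x : (Fin R → ZMod (2 * q)) × Fin W // Good q W v w o x ∧
              StartsAt q W v w i x
                (((W : ℤ) * ((B : ZMod (2 * q)).val : ℤ) + (w i * l : ℕ) : ℤ) :
                  ZMod (2 * q * W))} : ℝ) - μ| ≤
        η * ((2 * q : ℝ) * ((W / w i : ℕ) : ℝ) * μ))
    [Fintype ({x : (Fin R → ZMod (2 * q)) × Fin W // Good q W v w o x} × Fin J)] :
    |(Fintype.card (St q W o w i) : ℝ) * M - U| ≤ 2 * e * U ∧
      |(Fintype.card ({x : (Fin R → ZMod (2 * q)) × Fin W // Good q W v w o x} × Fin J) : ℝ) - U| ≤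
        2 * e * U ∧
      ((∑ s : St q W o w i, ((univ.filter fun y :
          {x : (Fin R → ZMod (2 * q)) × Fin W // Good q W v w o x} × Fin J =>
            startOf hW v w hw o i y.1 = s).card - M) : ℕ) : ℝ) ≤ 3 * e * U := by
  have hJ : (0 : ℝ) ≤ J := Nat.cast_nonneg _
  have ha : 0 ≤ (J : ℝ) * μ := mul_nonneg hJ hμ.le
  have hh : (0 : ℝ) ≤ ((W / w i : ℕ) : ℝ) := Nat.cast_nonneg _
  have hV : η * ((2 * q : ℝ) * ((W / w i : ℕ) : ℝ) * ((J : ℝ) * μ)) ≤ e * U := by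
    rw [hU]
    have := mul_le_mul_of_nonneg_right hηp
      (by positivity : 0 ≤ (2 * q : ℝ) * ((W / w i : ℕ) : ℝ) * ((J : ℝ) * μ))
    linarith
  rw [finsum_eq_sum_of_fintype] at hN
  simp only [← Fin.sum_univ_eq_sum_range] at hN
  have hN' : ∑ s : St q W o w i,
      |(Nat.card {x : (Fin R → ZMod (2 * q)) × Fin W // Good q W v w o x ∧
        StartsAt q W v w i x
          (((W : ℤ) * ((s.1 : ZMod (2 * q)).val : ℤ) + (w i * (s.2 : ℕ) : ℕ) : ℤ) :
            ZMod (2 * q * W))} : ℝ) - μ| ≤ η * ((2 * q : ℝ) * ((W / w i : ℕ) : ℝ) * μ) := by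
    rw [Fintype.sum_prod_type]
    exact hN
  have hdev : ∑ s : St q W o w i, |((univ.filter fun y :
      {x : (Fin R → ZMod (2 * q)) × Fin W // Good q W v w o x} × Fin J =>
        startOf hW v w hw o i y.1 = s).card : ℝ) - (J : ℝ) * μ| ≤ e * U := by
    refine le_trans ?_ hV
    rw [show η * ((2 * q : ℝ) * ((W / w i : ℕ) : ℝ) * ((J : ℝ) * μ)) =
      (J : ℝ) * (η * ((2 * q : ℝ) * ((W / w i : ℕ) : ℝ) * μ)) by ring]
    refine le_trans (le_of_eq ?_) (mul_le_mul_of_nonneg_left hN' hJ)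
    rw [Finset.mul_sum]
    refine Finset.sum_congr rfl fun s _ => ?_
    rw [card_fibre, Nat.cast_mul, mul_comm, ← mul_sub, abs_mul, abs_of_nonneg hJ]
  obtain ⟨h1, h2⟩ := fibre_bounds
    (fun y : {x : (Fin R → ZMod (2 * q)) × Fin W // Good q W v w o x} × Fin J =>
      startOf hW v w hw o i y.1) ((J : ℝ) * μ) M ha hη hM hdev
  have hU0 : 0 ≤ U := by rw [hU]; positivity
  refine class_close (Nat.cast_nonneg _) ha hU0 he hηe he1 hM hM' ?_ h1 h2
  rw [hU, show (Fintype.card (St q W o w i) : ℝ) =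
    (Nat.card {B // o B = (i, true)} : ℝ) * ((W / w i : ℕ) : ℝ) by
      simp [Nat.card_eq_fintype_card]]
  rw [← sub_mul, ← sub_mul, abs_mul, abs_mul, abs_of_nonneg hh, abs_of_nonneg ha]
  refine le_trans ?_ (hV.trans_eq (by rw [hU]))
  rw [show η * ((2 * q : ℝ) * ((W / w i : ℕ) : ℝ) * ((J : ℝ) * μ)) =
    η * (2 * q : ℝ) * ((W / w i : ℕ) : ℝ) * ((J : ℝ) * μ) by ring]
  gcongr

end Vale.Agent.P110.Full
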