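import Mathlib

/-!
Auxiliary integer vectors: a generic direction, and vectors orthogonal to one member of a family.
-/

namespace Vale.Agent.P110.Full

open Finset Polynomial

variable {R : ℕ}

theorem exists_generic_vector {ι : Type*} [Finite ι] (v : ι → Fin R → ℤ) (hv : ∀ i, v i ≠ 0) :
    ∃ u : Fin R → ℤ, ∀ i, ∑ l, v i l * u l ≠ 0 := by
  cases nonempty_fintype ι
  set p : ι → ℤ[X] := fun i => ∑ l : Fin R, C (v i l) * X ^ (l : ℕ)
  have hp : ∀ i, p i ≠ 0 := by
    intro i h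
    refine hv i (funext fun l => ?_)
    have h' := congrArg (fun q : ℤ[X] => q.coeff (l : ℕ)) h
    simpa [p, finsetSum_coeff, coeff_C_mul, coeff_X_pow, Fin.val_inj] using h'
  obtain ⟨z, hz⟩ := Infinite.exists_notMem_finset
    ((Finset.univ : Finset ι).biUnion fun i => (p i).roots.toFinset)
  refine ⟨fun l => z ^ (l : ℕ), fun i h => hz (mem_biUnion.2 ⟨i, mem_univ i, ?_⟩)⟩
  rw [Multiset.mem_toFinset, mem_roots (hp i), IsRoot, eval_finsetSum]
  simpa using h

theorem eq_or_eq_neg_of_parallel {v v' ξ ξ' : Fin R → ℤ} (hξ : ∑ l, v l * ξ l = 1)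
    (hξ' : ∑ l, v' l * ξ' l = 1) {a b : ℤ} (ha : a ≠ 0) (h : ∀ l, a * v' l = b * v l) :
    v' = v ∨ v' = -v := by
  have h1 : a = b * ∑ l, v l * ξ' l := by
    calc a = a * ∑ l, v' l * ξ' l := by rw [hξ', mul_one]
      _ = _ := by
        rw [Finset.mul_sum, Finset.mul_sum]
        exact Finset.sum_congr rfl fun l _ => by rw [← mul_assoc, h l, mul_assoc]
  have h2 : b = a * ∑ l, v' l * ξ l := by
    calc b = b * ∑ l, v l * ξ l := by rw [hξ, mul_one]
      _ = _ := by
        rw [Finset.mul_sum, Finset.mul_sum]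
        exact Finset.sum_congr rfl fun l _ => by rw [← mul_assoc, ← h l, mul_assoc]
  have h3 : a * 1 = a * ((∑ l, v' l * ξ l) * ∑ l, v l * ξ' l) := by
    rw [mul_one, ← mul_assoc, ← h2]; exact h1
  have h4 : (∑ l, v' l * ξ l) * (∑ l, v l * ξ' l) = 1 := (mul_left_cancel₀ ha h3).symm
  rcases Int.eq_one_or_neg_one_of_mul_eq_one h4 with h5 | h5
  · left
    funext l
    have := h l
    rw [h2, h5, mul_one] at this
    exact mul_left_cancel₀ ha this
  · right
    funext l
    have := h l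
    rw [h2, h5] at this
    exact mul_left_cancel₀ ha (by simpa using this)

theorem exists_orthogonal {ι : Type*} [Finite ι] (v : ι → Fin R → ℤ)
    (hp : ∀ i, ∃ ξ : Fin R → ℤ, ∑ l, v i l * ξ l = 1)
    (hd : ∀ i j, i ≠ j → v i ≠ v j ∧ v i ≠ -v j) (j : ι) :
    ∃ A : Fin R → ℤ, ∑ l, v j l * A l = 0 ∧ ∀ i, i ≠ j → ∑ l, v i l * A l ≠ 0 := by
  set vv := ∑ l, v j l * v j l with hvv
  have hvv0 : vv ≠ 0 := by
    intro h
    obtain ⟨ξ, hξ⟩ := hp j
    rw [hvv, Finset.sum_eq_zero_iff_of_nonneg fun l _ => mul_self_nonneg _] at h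
    have hz : ∀ l, v j l = 0 := fun l => mul_self_eq_zero.1 (h l (mem_univ l))
    simp [hz] at hξ
  set y : {i // i ≠ j} → Fin R → ℤ := fun i l =>
    vv * v i l - (∑ m, v i m * v j m) * v j l with hy
  have hy0 : ∀ i, y i ≠ 0 := by
    intro i h
    obtain ⟨ξ, hξ⟩ := hp j
    obtain ⟨ξ', hξ'⟩ := hp i
    have hpar := eq_or_eq_neg_of_parallel hξ hξ' hvv0
      (fun l => sub_eq_zero.1 (congrFun h l))
    rcases hpar with h' | h'
    · exact (hd i j i.2).1 h'
    · exact (hd i j i.2).2 h'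
  obtain ⟨T, hT⟩ := exists_generic_vector y hy0
  refine ⟨fun l => vv * T l - (∑ m, v j m * T m) * v j l, ?_, fun i hi => ?_⟩
  · simp only [mul_sub, Finset.sum_sub_distrib, mul_left_comm (v j _) vv,
      mul_left_comm (v j _) (∑ m, v j m * T m), ← Finset.mul_sum, ← hvv]
    ring
  · convert hT ⟨i, hi⟩ using 1
    simp only [hy, mul_sub, sub_mul, Finset.sum_sub_distrib, mul_assoc,
      mul_left_comm (v i _) vv, mul_left_comm (v i _) (∑ m, v j m * T m), ← Finset.mul_sum]
    ring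

end Vale.Agent.P110.Full
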