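import Mathlib
import Vale.Agent.P110.Full.Statements
import Vale.Agent.P110.Full.Assembly.Vectors

/-!
The carrier: one vector whose product with each class vector gives a quadratic Gauss phase.
-/

noncomputable section

namespace Vale.Agent.P110.Full

open Finset

theorem isCoprime_of_modEq_one {L m : ℕ} {a : ℤ} (h : m ≡ 1 [MOD L]) (ha : a.natAbs ∣ L) :
    IsCoprime a (m : ℤ) := by
  rw [Int.isCoprime_iff_nat_coprime, Int.natAbs_natCast]
  have h' := (h.of_dvd ha).gcd_eq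
  rw [Nat.gcd_one_left] at h'
  exact Nat.Coprime.symm h'

theorem exists_carrier (hG : GaussStatement) {I : Type} [Fintype I] [DecidableEq I] {R : ℕ}
    (v : I → Fin R → ℤ) (A : I → Fin R → ℤ) (hA0 : ∀ j, ∑ l, v j l * A j l = 0) (L : ℕ)
    (h2 : 2 ∣ L) (hAL : ∀ i j, i ≠ j → (∑ l, v i l * A j l).natAbs ∣ L) (M : I → ℕ)
    (hM1 : ∀ i, M i ≡ 1 [MOD L]) (hc : ∀ i j, i ≠ j → (M i).Coprime (M j)) :
    ∃ (B : Fin R → ℤ) (b : I → ℤ) (β : ∀ i, Fin (∏ j ∈ univ.erase i, M j) → ℝ),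
      (∀ i, ∑ l, v i l * B l = (M i : ℤ) * b i) ∧
      ∀ i (k : ℤ), ch ((b i : ℝ) * k ^ 2 / (∏ j ∈ univ.erase i, M j : ℕ)) =
        (Real.sqrt (∏ j ∈ univ.erase i, M j : ℕ) : ℂ)⁻¹ *
          ∑ t : Fin (∏ j ∈ univ.erase i, M j),
            ch (β i t - (t : ℕ) * k / (∏ j ∈ univ.erase i, M j : ℕ)) := by
  set B : Fin R → ℤ := fun l => ∑ j, A j l * ∏ m ∈ univ.erase j, (M m : ℤ) with hB
  set b : I → ℤ := fun i => ∑ j ∈ univ.erase i,
    (∑ l, v i l * A j l) * ∏ m ∈ (univ.erase j).erase i, (M m : ℤ) with hb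
  have hvB : ∀ i, ∑ l, v i l * B l = (M i : ℤ) * b i := by
    intro i
    simp only [hB, hb, Finset.mul_sum]
    rw [Finset.sum_comm, ← Finset.add_sum_erase _ _ (mem_univ i)]
    have h0 : ∑ l, v i l * (A i l * ∏ m ∈ univ.erase i, (M m : ℤ)) = 0 := by
      simp only [← mul_assoc, ← Finset.sum_mul, hA0, zero_mul]
    rw [h0, zero_add]
    refine Finset.sum_congr rfl fun j hj => ?_
    rw [← Finset.mul_prod_erase (univ.erase j) (fun m => (M m : ℤ))
      (mem_erase.2 ⟨(ne_of_mem_erase hj).symm, mem_univ i⟩)]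
    simp only [Finset.sum_mul, Finset.mul_sum]
    exact Finset.sum_congr rfl fun l _ => by ring
  have hodd : ∀ i, Odd (∏ j ∈ univ.erase i, M j) := fun i =>
    Finset.prod_induction M Odd (fun _ _ => Odd.mul) odd_one fun j _ =>
      Nat.odd_iff.2 ((hM1 j).of_dvd h2)
  have hcop : ∀ i, Int.gcd (b i) (∏ j ∈ univ.erase i, M j : ℕ) = 1 := by
    intro i
    rw [← Int.isCoprime_iff_gcd_eq_one, Nat.cast_prod]
    refine IsCoprime.prod_right fun l hl => ?_
    have hli : i ≠ l := (ne_of_mem_erase hl).symm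
    simp only [hb]
    rw [← Finset.add_sum_erase _ _ hl]
    obtain ⟨c, hc'⟩ : (M l : ℤ) ∣ ∑ j ∈ (univ.erase i).erase l,
        (∑ r, v i r * A j r) * ∏ m ∈ (univ.erase j).erase i, (M m : ℤ) :=
      Finset.dvd_sum fun j hj => Dvd.dvd.mul_left (Finset.dvd_prod_of_mem _
        (mem_erase.2 ⟨hli.symm, mem_erase.2 ⟨(ne_of_mem_erase hj).symm, mem_univ l⟩⟩)) _
    rw [hc']
    refine (IsCoprime.mul_left ?_ (IsCoprime.prod_left fun m hm => ?_)).add_mul_left_left c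
    · exact isCoprime_of_modEq_one (hM1 l) (hAL i l hli)
    · exact Int.isCoprime_iff_nat_coprime.2
        (by simpa using hc m l (ne_of_mem_erase (mem_of_mem_erase hm)))
  choose β hβ using fun i => hG _ (b i) (hodd i) (hcop i)
  exact ⟨B, b, β, hvB, hβ⟩

end Vale.Agent.P110.Full
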