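import Mathlib
import Vale.Agent.P110.Full.Defs

/-!
Selection of groups so that no start is overloaded, and distribution of the residues.
-/

noncomputable section

namespace Vale.Agent.P110.Full

open Finset

theorem exists_groups {I : Type} [Fintype I] [DecidableEq I] {X : Type} [Fintype X]
    [DecidableEq X] (St : I → Type) [∀ i, Fintype (St i)] [∀ i, DecidableEq (St i)]
    (f : ∀ i, X → St i) (M : I → ℕ) :
    ∃ (F : Finset X) (d : I → ℕ) (Φ : ∀ i, {x // x ∈ F} ⊕ Fin (d i) ≃ St i × Fin (M i)),
      (∀ i x, (Φ i (Sum.inl x)).1 = f i x.1) ∧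
      Fintype.card X ≤ F.card + ∑ i, ∑ s, ((univ.filter fun x => f i x = s).card - M i) ∧
      ∀ i, Fintype.card (St i) * M i = F.card + d i := by
  classical
  have hD : ∀ i s, ∃ D ⊆ univ.filter (fun x => f i x = s),
      D.card = (univ.filter fun x => f i x = s).card - M i := fun i s =>
    Finset.exists_subset_card_eq (Nat.sub_le _ _)
  choose D hDs hDc using hD
  set E := univ.biUnion fun i => univ.biUnion fun s => D i s with hE
  have hE' : E.card ≤ ∑ i, ∑ s, ((univ.filter fun x => f i x = s).card - M i) := by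
    refine Finset.card_biUnion_le.trans (Finset.sum_le_sum fun i _ => ?_)
    refine Finset.card_biUnion_le.trans (Finset.sum_le_sum fun s _ => ?_)
    rw [hDc]
  set F := univ \ E with hF
  have hload : ∀ i s, (F.filter fun x => f i x = s).card ≤ M i := by
    intro i s
    have hsub : F.filter (fun x => f i x = s) ⊆ univ.filter (fun x => f i x = s) \ D i s := by
      intro x hx
      obtain ⟨hxF, hxs⟩ := mem_filter.1 hx
      refine mem_sdiff.2 ⟨mem_filter.2 ⟨mem_univ _, hxs⟩, fun h => (mem_sdiff.1 hxF).2 ?_⟩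
      exact mem_biUnion.2 ⟨i, mem_univ _, mem_biUnion.2 ⟨s, mem_univ _, h⟩⟩
    refine (Finset.card_le_card hsub).trans ?_
    rw [Finset.card_sdiff_of_subset (hDs i s), hDc]
    omega
  have hemb : ∀ i s, Nonempty ({x // x ∈ F.filter fun x => f i x = s} ↪ Fin (M i)) := fun i s =>
    Function.Embedding.nonempty_of_card_le (by
      rw [Fintype.card_coe, Fintype.card_fin]; exact hload i s)
  set g : ∀ i, {x // x ∈ F} → St i × Fin (M i) := fun i x =>
    (f i x.1, (hemb i (f i x.1)).some ⟨x.1, mem_filter.2 ⟨x.2, rfl⟩⟩) with hg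
  have hinj : ∀ i, Function.Injective (g i) := by
    intro i x y h
    have key : ∀ (p p' : St i) (hx : x.1 ∈ F.filter fun z => f i z = p)
        (hy : y.1 ∈ F.filter fun z => f i z = p'),
        (p, (hemb i p).some ⟨x.1, hx⟩) = (p', (hemb i p').some ⟨y.1, hy⟩) → x = y := by
      intro p p' hx hy he
      obtain rfl : p = p' := congrArg Prod.fst he
      exact Subtype.ext (congrArg Subtype.val ((hemb i p).some.injective (congrArg Prod.snd he)) :)
    exact key _ _ _ _ h
  set d : I → ℕ := fun i => Fintype.card ↥(Set.range (g i))ᶜ with hd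
  set Φ : ∀ i, {x // x ∈ F} ⊕ Fin (d i) ≃ St i × Fin (M i) := fun i =>
    ((Equiv.ofInjective (g i) (hinj i)).sumCongr (Fintype.equivFin ↥(Set.range (g i))ᶜ).symm).trans
      (Equiv.Set.sumCompl (Set.range (g i))) with hΦ
  refine ⟨F, d, Φ, fun i x => ?_, ?_, fun i => ?_⟩
  · simp [hΦ, hg]
  · have h : F.card = Fintype.card X - E.card := by
      rw [hF, Finset.card_sdiff_of_subset (subset_univ _), Finset.card_univ]
    omega
  · have h := Fintype.card_congr (Φ i)
    simpa using h.symm

end Vale.Agent.P110.Full
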